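import Vale.Agent.P150.H185.Mlsi

/-!
# P150: a bottleneck between two halves of the configuration space

If the Gibbs mass of the configurations which are almost orthogonal to one configuration `τ` is
small, then the spectral gap is small and the dynamics started at most configurations stays in its
half `{R(·,τ) > 0}` or `{R(·,τ) < 0}` for a long time.
-/

open Finset

namespace Vale.Agent.P150.H357

variable {n : ℕ} {J : Fin n → Fin n → ℝ} (b : Fin n → ℝ)

/-- the Dirichlet form of an indicator is at most `n` times the mass of the boundary -/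
theorem dir_le (f Bd : Cfg n → ℝ) (hf : ∀ x, f x = 0 ∨ f x = 1) (hB0 : ∀ x, 0 ≤ Bd x)
    (hB : ∀ x, f x = 1 → ∀ i s, f (Function.update x i s) = 0 → 1 ≤ Bd x) :
    dir J b f f ≤ n * ex J b Bd := by
  have h1 : dir J b f f = ex J b (fun x => ∑ i, f x * (f x - resample J b i f x)) := by
    unfold dir ex gen
    rw [← Finset.sum_neg_distrib]
    refine Finset.sum_congr rfl fun x _ => ?_
    rw [← mul_neg, ← mul_neg, ← Finset.sum_neg_distrib, Finset.mul_sum]
    congr 1
    exact Finset.sum_congr rfl fun i _ => by ring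
  have h2 : (n : ℝ) * ex J b Bd = ex J b (fun x => ∑ _i : Fin n, Bd x) := by
    rw [← Semi.ex_smul]
    congr 1
    funext x
    rw [Finset.sum_const, Finset.card_univ, Fintype.card_fin, nsmul_eq_mul]
  rw [h1, h2]
  refine Semi.ex_mono b fun x => Finset.sum_le_sum fun i _ => ?_
  rcases hf x with h0 | h0
  · rw [h0, zero_mul]
    exact hB0 x
  · rw [h0, one_mul]
    have hnn : 0 ≤ resample J b i f x := by
      unfold resample
      refine Finset.sum_nonneg fun s _ => mul_nonneg (Semi.resample_weight_nonneg J b x i s) ?_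
      rcases hf (Function.update x i s) with h | h <;> rw [h]
      norm_num
    by_cases hc : ∃ s, f (Function.update x i s) = 0
    · obtain ⟨s, hs⟩ := hc
      have := hB x h0 i s hs
      linarith
    · push Not at hc
      have h3 : resample J b i f x = 1 := by
        unfold resample
        rw [← Semi.resample_weight_sum J b x i]
        refine Finset.sum_congr rfl fun s _ => ?_
        rcases hf (Function.update x i s) with h | h
        · exact absurd h (hc s)
        · rw [h, mul_one]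
      rw [h3, sub_self]
      exact hB0 x

lemma sq_eq {f : Cfg n → ℝ} (hf : ∀ x, f x = 0 ∨ f x = 1) : (fun x => f x ^ 2) = f := by
  funext x
  rcases hf x with h | h <;> rw [h] <;> norm_num

lemma Pt_le_one {f : Cfg n → ℝ} (hf : ∀ x, f x = 0 ∨ f x = 1) {t : ℝ} (ht : 0 ≤ t)
    (x : Cfg n) : Low.Pt J b t f x ≤ 1 := by
  unfold Low.Pt
  rw [← Semi.kernel_row J b t x]
  refine Finset.sum_le_sum fun y _ => mul_le_of_le_one_right (Semi.kernel_nonneg J b ht x y) ?_
  rcases hf y with h | h <;> rw [h]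
  norm_num

/-- the mass which stays in the set -/
theorem ex_stay (hJ : ∀ i j, J i j = J j i) {f : Cfg n → ℝ} (hf : ∀ x, f x = 0 ∨ f x = 1)
    {t : ℝ} (ht : 0 ≤ t) : ex J b f - t * dir J b f f ≤ ex J b (fun x => f x * Low.Pt J b t f x) := by
  rw [Low.ex_mul_Pt b hJ f t]
  have hm0 : 0 ≤ ex J b f := Semi.ex_nonneg b fun x => by
    rcases hf x with h | h <;> rw [h]
    norm_num
  have hd := Semi.dir_self_nonneg b hJ f
  rcases hm0.eq_or_lt with hm | hm
  · have h1 : 0 ≤ ex J b (fun x => Low.Pt J b (t / 2) f x ^ 2) :=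
      Semi.ex_nonneg b fun x => sq_nonneg _
    have h2 := mul_nonneg ht hd
    linarith
  · have h1 := Low.second_moment_flow b hJ f (by rw [sq_eq hf]; exact hm) (t / 2) (by linarith)
    rw [sq_eq hf] at h1
    refine le_trans ?_ h1
    have h2 := Real.add_one_le_exp (-(2 * (dir J b f f / ex J b f) * (t / 2)))
    have h3 := mul_le_mul_of_nonneg_right h2 hm.le
    refine le_trans (le_of_eq ?_) h3
    field_simp
    ring

/-- Most starting points of the set stay there with high probability. -/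
theorem typical (hJ : ∀ i j, J i j = J j i) {f : Cfg n → ℝ} (hf : ∀ x, f x = 0 ∨ f x = 1)
    {t η : ℝ} (ht : 0 ≤ t) (hη : 0 < η) :
    ex J b (fun x => if f x = 1 ∧ Low.Pt J b t f x < 1 - η then 1 else 0) ≤
      t * dir J b f f / η := by
  rw [le_div_iff₀ hη, mul_comm, ← Semi.ex_smul]
  have h1 := ex_stay b hJ hf ht
  have h2 : ex J b (fun x => η * if f x = 1 ∧ Low.Pt J b t f x < 1 - η then (1 : ℝ) else 0) ≤
      ex J b (fun x => f x + (-1) * (f x * Low.Pt J b t f x)) := by
    refine Semi.ex_mono b fun x => ?_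
    have h3 := Pt_le_one (J := J) b hf ht x
    split_ifs with h
    · rw [h.1]
      linarith [h.2]
    · rcases hf x with h4 | h4 <;> rw [h4]
      · simp
      · linarith
  refine h2.trans ?_
  rw [Semi.ex_add, Semi.ex_smul b (-1)]
  linarith

/-- the total variation distance is at least the excess of the mass of the set -/
theorem tv_ge {f : Cfg n → ℝ} (hf : ∀ x, f x = 0 ∨ f x = 1) (t : ℝ) (x : Cfg n) :
    Low.Pt J b t f x - ex J b f ≤ tvDist J b t x := by
  have h1 : Low.Pt J b t f x - ex J b f =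
      ∑ y, (f y - 1 / 2) * (kernel J b t x y - gibbs J b y) := by
    have e : ∀ y, (f y - 1 / 2) * (kernel J b t x y - gibbs J b y) =
        kernel J b t x y * f y - gibbs J b y * f y -
          (1 / 2 * kernel J b t x y - 1 / 2 * gibbs J b y) := fun y => by ring
    simp_rw [e]
    rw [Finset.sum_sub_distrib, Finset.sum_sub_distrib, Finset.sum_sub_distrib,
      ← Finset.mul_sum, ← Finset.mul_sum, Semi.kernel_row, gibbs_sum]
    unfold Low.Pt ex
    ring
  rw [h1]
  unfold tvDist
  rw [Finset.mul_sum]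
  refine Finset.sum_le_sum fun y _ => ?_
  refine (le_abs_self _).trans ?_
  rw [abs_mul]
  refine mul_le_mul_of_nonneg_right ?_ (abs_nonneg _)
  rcases hf y with h | h <;> rw [h] <;> norm_num

/-! ### the two halves -/

/-- the unnormalised overlap -/
noncomputable def ov (τ x : Cfg n) : ℝ := ∑ i, sp (x i) * sp (τ i)

/-- the configuration with all spins reversed -/
def neg (x : Cfg n) : Cfg n := fun i => !x i

lemma sp_not (s : Bool) : sp (!s) = -sp s := by cases s <;> simp [sp]

lemma abs_sp (s : Bool) : |sp s| = 1 := by cases s <;> simp [sp]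

lemma neg_neg' (x : Cfg n) : neg (neg x) = x := by
  funext i
  simp [neg]

lemma ov_neg (τ x : Cfg n) : ov τ (neg x) = -ov τ x := by
  unfold ov neg
  rw [← Finset.sum_neg_distrib]
  exact Finset.sum_congr rfl fun i _ => by rw [sp_not]; ring

lemma energy_neg (x : Cfg n) : energy J (fun _ => 0) (neg x) = energy J (fun _ => 0) x := by
  unfold energy neg
  congr 1
  · refine Finset.sum_congr rfl fun i _ => Finset.sum_congr rfl fun j _ => ?_
    rw [sp_not, sp_not]
    split_ifs <;> ring
  · exact Finset.sum_congr rfl fun i _ => by ring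

lemma gibbs_neg (x : Cfg n) : gibbs J (fun _ => 0) (neg x) = gibbs J (fun _ => 0) x := by
  unfold gibbs
  rw [energy_neg]

lemma ex_neg (f : Cfg n → ℝ) : ex J (fun _ => 0) (fun x => f (neg x)) = ex J (fun _ => 0) f := by
  unfold ex
  refine Finset.sum_bij' (fun x _ => neg x) (fun x _ => neg x) (fun _ _ => Finset.mem_univ _)
    (fun _ _ => Finset.mem_univ _) (fun x _ => neg_neg' x) (fun x _ => neg_neg' x) fun x _ => ?_
  rw [gibbs_neg]

lemma ov_update (τ x : Cfg n) (i : Fin n) (s : Bool) :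
    |ov τ (Function.update x i s) - ov τ x| ≤ 2 := by
  unfold ov
  rw [← Finset.sum_sub_distrib]
  rw [Finset.sum_eq_single i]
  · rw [Function.update_self, ← sub_mul, abs_mul, abs_sp, mul_one]
    have h1 := abs_sp s
    have h2 := abs_sp (x i)
    calc |sp s - sp (x i)| ≤ |sp s| + |sp (x i)| := abs_sub _ _
      _ = 2 := by rw [h1, h2]; norm_num
  · intro j _ hj
    rw [Function.update_of_ne hj, sub_self]
  · intro h
    exact absurd (Finset.mem_univ i) h

/-- the indicator of the positive half -/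
noncomputable def fp (τ x : Cfg n) : ℝ := if 0 < ov τ x then 1 else 0
/-- the indicator of the negative half -/
noncomputable def fm (τ x : Cfg n) : ℝ := if ov τ x < 0 then 1 else 0
/-- the indicator of the boundary -/
noncomputable def fb (τ x : Cfg n) : ℝ := if |ov τ x| ≤ 2 then 1 else 0

lemma fp01 (τ x : Cfg n) : fp τ x = 0 ∨ fp τ x = 1 := by unfold fp; split_ifs <;> simp
lemma fm01 (τ x : Cfg n) : fm τ x = 0 ∨ fm τ x = 1 := by unfold fm; split_ifs <;> simp
lemma fb0 (τ x : Cfg n) : 0 ≤ fb τ x := by unfold fb; split_ifs <;> norm_num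

lemma fm_eq (τ x : Cfg n) : fm τ x = fp τ (neg x) := by
  unfold fm fp
  rw [ov_neg]
  simp

lemma dir_fp (τ : Cfg n) : dir J b (fp τ) (fp τ) ≤ n * ex J b (fb τ) := by
  refine dir_le b _ _ (fp01 τ) (fb0 τ) fun x hx i s hs => ?_
  have h1 : 0 < ov τ x := by
    by_contra h
    unfold fp at hx
    rw [if_neg h] at hx
    norm_num at hx
  have h2 : ¬ 0 < ov τ (Function.update x i s) := by
    intro h
    unfold fp at hs
    rw [if_pos h] at hs
    norm_num at hs
  have h3 := abs_le.1 (ov_update τ x i s)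
  unfold fb
  rw [if_pos]
  rw [abs_of_pos h1]
  linarith [h3.1, not_lt.1 h2]

lemma dir_fm (τ : Cfg n) : dir J b (fm τ) (fm τ) ≤ n * ex J b (fb τ) := by
  refine dir_le b _ _ (fm01 τ) (fb0 τ) fun x hx i s hs => ?_
  have h1 : ov τ x < 0 := by
    by_contra h
    unfold fm at hx
    rw [if_neg h] at hx
    norm_num at hx
  have h2 : ¬ ov τ (Function.update x i s) < 0 := by
    intro h
    unfold fm at hs
    rw [if_pos h] at hs
    norm_num at hs
  have h3 := abs_le.1 (ov_update τ x i s)
  unfold fb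
  rw [if_pos]
  rw [abs_of_neg h1]
  linarith [h3.2, not_lt.1 h2]

lemma ex_fm (τ : Cfg n) : ex J (fun _ => 0) (fm τ) = ex J (fun _ => 0) (fp τ) := by
  rw [← ex_neg (fp τ)]
  congr 1
  funext x
  exact fm_eq τ x

lemma ex_halves (τ : Cfg n) : ex J (fun _ => 0) (fp τ) ≤ 1 / 2 ∧
    1 / 2 - ex J (fun _ => 0) (fb τ) / 2 ≤ ex J (fun _ => 0) (fp τ) := by
  have h1 := ex_fm (J := J) τ
  have h2 : ex J (fun _ => 0) (fun x => fp τ x + fm τ x) ≤ 1 := by
    have h3 : ex J (fun _ => 0) (fun x => fp τ x + fm τ x) ≤ ex J (fun _ => 0) (fun _ => 1) := by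
      refine Semi.ex_mono _ fun x => ?_
      unfold fp fm
      split_ifs <;> linarith
    rwa [Semi.ex_const] at h3
  have h4 : 1 ≤ ex J (fun _ => 0) (fun x => (fp τ x + fm τ x) + fb τ x) := by
    have h3 : ex J (fun _ => 0) (fun _ => 1) ≤
        ex J (fun _ => 0) (fun x => (fp τ x + fm τ x) + fb τ x) := by
      refine Semi.ex_mono _ fun x => ?_
      rcases lt_trichotomy (ov τ x) 0 with h | h | h
      · have := fb0 τ x
        unfold fp fm
        rw [if_neg (not_lt.2 h.le), if_pos h]
        linarith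
      · unfold fp fm fb
        rw [h]
        norm_num
      · have := fb0 τ x
        unfold fp fm
        rw [if_pos h, if_neg (not_lt.2 h.le)]
        linarith
    rwa [Semi.ex_const] at h3
  rw [Semi.ex_add] at h2
  rw [Semi.ex_add _ (fun x => fp τ x + fm τ x), Semi.ex_add] at h4
  constructor <;> linarith

/-- **The gap.** -/
theorem gap_le (hJ : ∀ i j, J i j = J j i) (τ : Cfg n)
    (hq : ex J (fun _ => 0) (fb τ) ≤ 1 / 2) :
    gap J (fun _ => 0) ≤ 8 * n * ex J (fun _ => 0) (fb τ) := by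
  obtain ⟨h1, h2⟩ := ex_halves (J := J) τ
  have h3 := Semi.gap_mul_var_le (J := J) (fun _ => 0) hJ (fp τ)
  have h4 := dir_fp (J := J) (fun _ => 0) τ
  rw [Semi.var_eq, sq_eq (fp01 τ)] at h3
  obtain ⟨m, hm⟩ : ∃ m, m = ex J (fun _ => 0) (fp τ) := ⟨_, rfl⟩
  rw [← hm] at h1 h2 h3
  have hv : 1 / 8 ≤ m - m ^ 2 := by nlinarith
  have hq0 : 0 ≤ ex J (fun _ => 0) (fb τ) := Semi.ex_nonneg _ (fb0 τ)
  by_cases hg : gap J (fun _ => 0) ≤ 0
  · exact hg.trans (by positivity)
  · push Not at hg
    have h5 := mul_le_mul_of_nonneg_left hv hg.le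
    nlinarith

/-- **Most starting points are slow.** -/
theorem slow_start (hJ : ∀ i j, J i j = J j i) (τ : Cfg n) {t η : ℝ} (ht : 0 ≤ t) (hη : 0 < η) :
    ex J (fun _ => 0) (fun x => if tvDist J (fun _ => 0) t x < 1 / 2 - η then 1 else 0) ≤
      (2 * (t * n / η) + 1) * ex J (fun _ => 0) (fb τ) := by
  have h1 := typical (J := J) (fun _ => 0) hJ (fp01 τ) ht hη
  have h2 := typical (J := J) (fun _ => 0) hJ (fm01 τ) ht hη
  have h3 := (ex_halves (J := J) τ).1
  have h4 := ex_fm (J := J) τ
  have h5 : ex J (fun _ => 0) (fun x => if tvDist J (fun _ => 0) t x < 1 / 2 - η then 1 else 0) ≤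
      ex J (fun _ => 0) (fun x =>
        ((if fp τ x = 1 ∧ Low.Pt J (fun _ => 0) t (fp τ) x < 1 - η then (1 : ℝ) else 0) +
        (if fm τ x = 1 ∧ Low.Pt J (fun _ => 0) t (fm τ) x < 1 - η then (1 : ℝ) else 0)) +
          fb τ x) := by
    refine Semi.ex_mono _ fun x => ?_
    have hb := fb0 τ x
    by_cases hx : tvDist J (fun _ => 0) t x < 1 / 2 - η
    · rw [if_pos hx]
      rcases lt_trichotomy (ov τ x) 0 with h | h | h
      · have e1 : fm τ x = 1 := by unfold fm; rw [if_pos h]
        have h6 := tv_ge (J := J) (fun _ => 0) (fm01 τ) t x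
        rw [if_pos (show fm τ x = 1 ∧ Low.Pt J (fun _ => 0) t (fm τ) x < 1 - η from
          ⟨e1, by linarith⟩)]
        have : (0 : ℝ) ≤ if fp τ x = 1 ∧ Low.Pt J (fun _ => 0) t (fp τ) x < 1 - η then (1 : ℝ)
          else 0 := by split_ifs <;> norm_num
        linarith
      · have e1 : fb τ x = 1 := by unfold fb; rw [h]; norm_num
        have g1 : (0 : ℝ) ≤ if fp τ x = 1 ∧ Low.Pt J (fun _ => 0) t (fp τ) x < 1 - η then (1 : ℝ)
          else 0 := by split_ifs <;> norm_num
        have g2 : (0 : ℝ) ≤ if fm τ x = 1 ∧ Low.Pt J (fun _ => 0) t (fm τ) x < 1 - η then (1 : ℝ)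
          else 0 := by split_ifs <;> norm_num
        linarith
      · have e1 : fp τ x = 1 := by unfold fp; rw [if_pos h]
        have h6 := tv_ge (J := J) (fun _ => 0) (fp01 τ) t x
        rw [if_pos (show fp τ x = 1 ∧ Low.Pt J (fun _ => 0) t (fp τ) x < 1 - η from
          ⟨e1, by linarith⟩)]
        have : (0 : ℝ) ≤ if fm τ x = 1 ∧ Low.Pt J (fun _ => 0) t (fm τ) x < 1 - η then (1 : ℝ)
          else 0 := by split_ifs <;> norm_num
        linarith
    · rw [if_neg hx]
      have g1 : (0 : ℝ) ≤ if fp τ x = 1 ∧ Low.Pt J (fun _ => 0) t (fp τ) x < 1 - η then (1 : ℝ)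
        else 0 := by split_ifs <;> norm_num
      have g2 : (0 : ℝ) ≤ if fm τ x = 1 ∧ Low.Pt J (fun _ => 0) t (fm τ) x < 1 - η then (1 : ℝ)
        else 0 := by split_ifs <;> norm_num
      linarith
  refine h5.trans ?_
  rw [Semi.ex_add _ (fun x =>
        (if fp τ x = 1 ∧ Low.Pt J (fun _ => 0) t (fp τ) x < 1 - η then (1 : ℝ) else 0) +
        (if fm τ x = 1 ∧ Low.Pt J (fun _ => 0) t (fm τ) x < 1 - η then (1 : ℝ) else 0)),
    Semi.ex_add]
  have h7 := dir_fp (J := J) (fun _ => 0) τ
  have h8 := dir_fm (J := J) (fun _ => 0) τ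
  have h9 : t * dir J (fun _ => 0) (fp τ) (fp τ) / η ≤
      t * n / η * ex J (fun _ => 0) (fb τ) := by
    rw [div_mul_eq_mul_div, mul_assoc]
    gcongr
  have h10 : t * dir J (fun _ => 0) (fm τ) (fm τ) / η ≤
      t * n / η * ex J (fun _ => 0) (fb τ) := by
    rw [div_mul_eq_mul_div, mul_assoc]
    gcongr
  linarith

end Vale.Agent.P150.H357
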