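import Vale.Agent.P146.H357.Law
import Vale.Agent.P150.H357.Bot

/-!
# P150: the two descriptions of the Gibbs measure
-/

open Finset MeasureTheory

namespace Vale.Agent.P150.H357

variable {n : ℕ} {β : ℝ}

/-- the spin as a unit of `ℤ` -/
def eB : Bool ≃ ℤˣ where
  toFun s := if s then 1 else -1
  invFun v := decide (v = 1)
  left_inv s := by cases s <;> decide
  right_inv v := by
    rcases Int.units_eq_one_or v with h | h <;> rw [h] <;> decide

/-- the configuration with values in the units of `ℤ` -/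
def eC (n : ℕ) : Cfg n ≃ (Fin n → ℤˣ) := Equiv.arrowCongr (Equiv.refl _) eB

lemma eC_apply (x : Cfg n) (i : Fin n) : eC n x i = eB (x i) := rfl

lemma cast_eB (s : Bool) : ((eB s : ℤ) : ℝ) = sp s := by
  cases s <;> simp [eB, sp]

lemma sum_pairs (f : Fin n → Fin n → ℝ) :
    ∑ i, ∑ j, (if i < j then f i j else 0) = ∑ p : P146.Pair n, f p.1.1 p.1.2 := by
  rw [← Fintype.sum_prod_type', ← Finset.sum_filter]
  exact Finset.sum_subtype (p := fun p : Fin n × Fin n => p.1 < p.2) _ (fun p => by simp)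
    (fun p : Fin n × Fin n => f p.1 p.2)

lemma energy_eq (g : Pairs n → ℝ) (x : Cfg n) :
    energy (skJ β g) (fun _ => 0) x = β * P146.hamiltonian n g (eC n x) := by
  unfold energy
  have h1 := sum_pairs (n := n) (fun i j => skJ β g i j * sp (x i) * sp (x j))
  rw [h1]
  unfold P146.hamiltonian
  have h2 : ∑ i : Fin n, (fun _ => (0 : ℝ)) i * sp (x i) = 0 := by simp
  rw [h2, add_zero, Finset.mul_sum, Finset.mul_sum]
  refine Finset.sum_congr rfl fun p _ => ?_
  rw [eC_apply, eC_apply, cast_eB, cast_eB]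
  unfold skJ gsym
  rw [dif_pos p.2]
  ring

lemma gibbs_eq (g : Pairs n → ℝ) (x : Cfg n) :
    gibbs (skJ β g) (fun _ => 0) x = P146.H605.gibbs n β g (eC n x) := by
  unfold gibbs P146.H605.gibbs P146.partitionFn
  rw [energy_eq]
  congr 1
  rw [← Equiv.sum_comp (eC n)]
  exact Finset.sum_congr rfl fun y _ => by rw [energy_eq]

lemma overlap_eq (x τ : Cfg n) : P146.H605.overlap n (eC n τ) (eC n x) = ov τ x / n := by
  unfold P146.H605.overlap ov
  congr 1
  refine Finset.sum_congr rfl fun i _ => ?_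
  rw [eC_apply, eC_apply, cast_eB, cast_eB]
  ring

/-- the mass of a window of the overlap -/
lemma p2_eq (g : Pairs n → ℝ) (ε : ℝ) (τ : Cfg n) : P146.H357.p2 n β ε g (eC n τ) =
    ex (skJ β g) (fun _ => 0) (fun x => if |ov τ x / n| ≤ ε then 1 else 0) := by
  unfold P146.H357.p2 ex
  rw [← Equiv.sum_comp (eC n)]
  refine Finset.sum_congr rfl fun x _ => ?_
  rw [overlap_eq, gibbs_eq, mul_comm]

/-- the mass of the bad configurations -/
lemma bad_eq (g : Pairs n → ℝ) (ε A : ℝ) :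
    ∑ σ : Fin n → ℤˣ, P146.H605.gibbs n β g σ *
      (if A < P146.H357.p2 n β ε g σ then (1 : ℝ) else 0) =
    ex (skJ β g) (fun _ => 0) (fun τ => if A <
      ex (skJ β g) (fun _ => 0) (fun x => if |ov τ x / n| ≤ ε then 1 else 0) then 1 else 0) := by
  rw [← Equiv.sum_comp (eC n)]
  unfold ex
  refine Finset.sum_congr rfl fun τ _ => ?_
  have h := p2_eq (β := β) g ε τ
  unfold ex at h
  rw [h, gibbs_eq]

lemma fb_le (hn : 1 ≤ n) (τ x : Cfg n) {ε : ℝ} (hε : 2 ≤ ε * n) :
    fb τ x ≤ if |ov τ x / n| ≤ ε then 1 else 0 := by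
  have hn0 : (0 : ℝ) < n := by
    have : (1 : ℝ) ≤ n := by exact_mod_cast hn
    linarith
  unfold fb
  by_cases h : |ov τ x| ≤ 2
  · rw [if_pos h, if_pos]
    rw [abs_div, abs_of_pos hn0, div_le_iff₀ hn0]
    exact h.trans hε
  · rw [if_neg h]
    split_ifs <;> norm_num

/-- **Deterministic part.** If less than all the Gibbs mass is bad, the dynamics is slow. -/
theorem slow_of_bad (hn : 1 ≤ n) (g : Pairs n → ℝ) {ε A : ℝ} (hε : 2 ≤ ε * n) (hA : A ≤ 1 / 2)
    (h : ex (skJ β g) (fun _ => 0) (fun τ => if A <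
      ex (skJ β g) (fun _ => 0) (fun x => if |ov τ x / n| ≤ ε then 1 else 0) then 1 else 0) < 1) :
    gap (skJ β g) (fun _ => 0) ≤ 8 * n * A ∧
    ∀ t η : ℝ, 0 ≤ t → 0 < η → ex (skJ β g) (fun _ => 0)
      (fun x => if tvDist (skJ β g) (fun _ => 0) t x < 1 / 2 - η then 1 else 0) ≤
        (2 * (t * n / η) + 1) * A := by
  have hJ := Asm.skJ_symm β g
  have hex : ∃ τ : Cfg n,
      ex (skJ β g) (fun _ => 0) (fun x => if |ov τ x / n| ≤ ε then 1 else 0) ≤ A := by
    by_contra hc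
    push Not at hc
    have h1 : ex (skJ β g) (fun _ => 0) (fun τ => if A <
      ex (skJ β g) (fun _ => 0) (fun x => if |ov τ x / n| ≤ ε then (1 : ℝ) else 0) then (1 : ℝ)
        else 0) = 1 := by
      have h2 : (fun τ : Cfg n => if A < ex (skJ β g) (fun _ => 0)
          (fun x => if |ov τ x / n| ≤ ε then (1 : ℝ) else 0) then (1 : ℝ) else 0) =
          fun _ => 1 := by
        funext τ
        rw [if_pos (hc τ)]
      rw [h2, Semi.ex_const]
    linarith
  obtain ⟨τ, hτ⟩ := hex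
  have hq : ex (skJ β g) (fun _ => 0) (fb τ) ≤ A :=
    (Semi.ex_mono _ fun x => fb_le hn τ x hε).trans hτ
  have hn0 : (0 : ℝ) ≤ n := Nat.cast_nonneg n
  refine ⟨(gap_le hJ τ (hq.trans hA)).trans (mul_le_mul_of_nonneg_left hq (by positivity)),
    fun t η ht hη => (slow_start hJ τ ht hη).trans (mul_le_mul_of_nonneg_left hq ?_)⟩
  positivity

end Vale.Agent.P150.H357
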